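import Crest.Agent.N250.Act.FV
import Crest.Agent.N250.Act.Rot
import Crest.Agent.N250.B1.Stm

-- ▼ part N250/Act/Fam
section

/-!
# Row 250, B1 / S7 (helper97): the action along holomorphic families with values in a Banach space
-/

set_option autoImplicit false
open MeasureTheory Set Filter Topology Complex Asymptotics

noncomputable section

namespace Crest.Agent.N250.Act

variable {α β : ℝ}

/-- uniform differentiability of a `C¹` function near a compact set -/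
theorem unif_fd {F G : Type*} [NormedAddCommGroup F] [NormedSpace ℂ F] [ProperSpace F]
    [NormedAddCommGroup G] [NormedSpace ℂ G] {K U : Set F} (hK : IsCompact K) (hU : IsOpen U)
    (hKU : K ⊆ U) {Φ : F → G} {Φ' : F → F →L[ℂ] G} (hΦ : ∀ w ∈ U, HasFDerivAt Φ (Φ' w) w)
    (hΦ' : ContinuousOn Φ' U) {ε : ℝ} (hε : 0 < ε) :
    ∃ r > 0, ∀ w₀ ∈ K, ∀ w, ‖w - w₀‖ ≤ r → w ∈ U ∧ ‖Φ w - Φ w₀ - Φ' w₀ (w - w₀)‖ ≤ ε * ‖w - w₀‖ := by
  obtain ⟨ρ, hρ, hρU⟩ := hK.exists_cthickening_subset_open hU hKU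
  have hK2 : IsCompact (Metric.cthickening ρ K) := hK.cthickening
  have huc := hK2.uniformContinuousOn_of_continuous (hΦ'.mono hρU)
  obtain ⟨η, hη, hηc⟩ := Metric.uniformContinuousOn_iff_le.1 huc ε hε
  refine ⟨min ρ η, lt_min hρ hη, fun w₀ h0 w hw => ?_⟩
  have hball : Metric.closedBall w₀ (min ρ η) ⊆ Metric.cthickening ρ K :=
    (Metric.closedBall_subset_closedBall (min_le_left _ _)).trans
      (Metric.closedBall_subset_cthickening h0 ρ)
  have hw0 : w₀ ∈ Metric.closedBall w₀ (min ρ η) := Metric.mem_closedBall_self (lt_min hρ hη).le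
  have hw1 : w ∈ Metric.closedBall w₀ (min ρ η) := by simpa [dist_eq_norm] using hw
  refine ⟨hρU (hball hw1), ?_⟩
  exact (convex_closedBall w₀ _).norm_image_sub_le_of_norm_hasFDerivWithin_le'
    (f := Φ) (f' := Φ') (φ := Φ' w₀) (C := ε)
    (fun y hy => (hΦ y (hρU (hball hy))).hasFDerivWithinAt)
    (fun y hy => by
      have := hηc y (hball hy) w₀ (hball hw0)
        ((Metric.mem_closedBall.1 hy).trans (min_le_right _ _))
      simpa [dist_eq_norm] using this) hw0 hw1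

section nem

variable {B F : Type*} [NormedAddCommGroup B] [NormedSpace ℂ B] [NormedAddCommGroup F]
  [NormedSpace ℂ F] [ProperSpace F]

/-- `b ↦ ∬ χ Φ (ev b)` is differentiable -/
theorem II_diffAt (h : α ≤ β) (ev : ℝ × ℝ → B →L[ℂ] F) {C : ℝ} (hC : ∀ w ∈ Rc α β, ‖ev w‖ ≤ C)
    (hc : ∀ b, ContinuousOn (fun w => ev w b) (Rc α β)) {χ : ℝ × ℝ → ℂ}
    (hχ : ContinuousOn χ (Rc α β)) {U : Set F} (hU : IsOpen U) {Φ : F → ℂ}
    (hΦ : ContDiffOn ℂ 1 Φ U) {b₀ : B} (hb : ∀ w ∈ Rc α β, ev w b₀ ∈ U) :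
    DifferentiableAt ℂ (fun b => II α β fun w => χ w * Φ (ev w b)) b₀ := by
  have hK := isCompact_Rc α β
  have hfd : ContinuousOn (fderiv ℂ Φ) U := hΦ.continuousOn_fderiv_of_isOpen hU le_rfl
  have hd : ∀ w ∈ U, HasFDerivAt Φ (fderiv ℂ Φ w) w := fun w hw =>
    ((hΦ.contDiffAt (hU.mem_nhds hw)).differentiableAt one_ne_zero).hasFDerivAt
  have c0 : ContinuousOn (fun w => fderiv ℂ Φ (ev w b₀)) (Rc α β) := hfd.comp (hc b₀) hb
  have c1' : ∀ d, ContinuousOn (fun w => χ w * fderiv ℂ Φ (ev w b₀) (ev w d)) (Rc α β) :=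
    fun d => hχ.fun_mul (c0.clm_apply (hc d))
  obtain ⟨M, hM⟩ := hK.exists_bound_of_continuousOn hχ
  obtain ⟨N, hN⟩ := hK.exists_bound_of_continuousOn c0
  have hev : ∀ w ∈ Rc α β, ∀ d, ‖ev w d‖ ≤ (|C| + 1) * ‖d‖ := fun w hw d =>
    ((ev w).le_opNorm d).trans (mul_le_mul_of_nonneg_right
      ((hC w hw).trans ((le_abs_self C).trans (by linarith))) (norm_nonneg _))
  have hM' : ∀ w ∈ Rc α β, ‖χ w‖ ≤ |M| + 1 := fun w hw =>
    (hM w hw).trans ((le_abs_self M).trans (by linarith))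
  let L₀ : B →ₗ[ℂ] ℂ :=
    { toFun := fun d => II α β fun w => χ w * fderiv ℂ Φ (ev w b₀) (ev w d)
      map_add' := fun d e => by
        rw [← II_add h (c1' d) (c1' e)]
        exact II_congr h (fun w _ => by simp [mul_add])
      map_smul' := fun c d => by
        simp only [II, map_smul, smul_eq_mul, RingHom.id_apply, mul_left_comm _ c,
          intervalIntegral.integral_const_mul] }
  let L : B →L[ℂ] ℂ := L₀.mkContinuous
    (2 * Real.pi * ((β - α) * ((|M| + 1) * (|N| * (|C| + 1))))) (fun d => by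
      refine (II_le_const (M := (|M| + 1) * (|N| * ((|C| + 1) * ‖d‖))) h
        (fun w hw => ?_)).trans (le_of_eq (by ring))
      rw [norm_mul]
      refine mul_le_mul (hM' w hw) (((fderiv ℂ Φ (ev w b₀)).le_opNorm _).trans
        (mul_le_mul ((hN w hw).trans (le_abs_self N)) (hev w hw d) (norm_nonneg _)
          (abs_nonneg _))) (norm_nonneg _) (by positivity))
  refine HasFDerivAt.differentiableAt (f' := L) ?_
  rw [hasFDerivAt_iff_isLittleO, isLittleO_iff]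
  intro ε hε
  have hp := Real.pi_pos
  have hl : 0 < β - α + 1 := by linarith
  set A := 2 * Real.pi * ((β - α + 1) * ((|M| + 1) * (|C| + 1))) with hA
  have hA0 : 0 < A := by positivity
  obtain ⟨r, hr, hrr⟩ := unif_fd (hK.image_of_continuousOn (hc b₀)) hU
    (by rintro _ ⟨w, hw, rfl⟩; exact hb w hw) hd hfd (div_pos hε hA0)
  filter_upwards [Metric.closedBall_mem_nhds b₀ (show 0 < r / (|C| + 1) by positivity)] with b hb1
  have hb2 : ‖b - b₀‖ ≤ r / (|C| + 1) := by simpa [dist_eq_norm] using hb1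
  have h1 : ∀ w ∈ Rc α β, ‖ev w b - ev w b₀‖ ≤ r := fun w hw => by
    rw [← map_sub]
    refine (hev w hw _).trans ?_
    rw [mul_comm]
    exact (le_div_iff₀ (by positivity)).1 hb2
  have h2 := fun w hw => hrr _ (mem_image_of_mem _ hw) (ev w b) (h1 w hw)
  have c2 : ContinuousOn (fun w => χ w * Φ (ev w b)) (Rc α β) :=
    hχ.fun_mul (hΦ.continuousOn.comp (hc b) (fun w hw => (h2 w hw).1))
  have c3 : ContinuousOn (fun w => χ w * Φ (ev w b₀)) (Rc α β) :=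
    hχ.fun_mul (hΦ.continuousOn.comp (hc b₀) hb)
  have e : L (b - b₀) = II α β fun w => χ w * fderiv ℂ Φ (ev w b₀) (ev w (b - b₀)) := rfl
  rw [e, ← II_sub h c2 c3, ← II_sub h (c2.fun_sub c3) (c1' _)]
  refine (II_le_const (M := (|M| + 1) * (ε / A * ((|C| + 1) * ‖b - b₀‖))) h
    (fun w hw => ?_)).trans ?_
  · rw [← mul_sub, ← mul_sub, norm_mul]
    refine mul_le_mul (hM' w hw) ?_ (norm_nonneg _) (by positivity)
    rw [map_sub (ev w)]
    refine (h2 w hw).2.trans (mul_le_mul_of_nonneg_left ?_ (by positivity))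
    rw [← map_sub]
    exact hev w hw _
  · have hn := norm_nonneg (b - b₀)
    calc 2 * Real.pi * ((β - α) * ((|M| + 1) * (ε / A * ((|C| + 1) * ‖b - b₀‖))))
        ≤ 2 * Real.pi * ((β - α + 1) * ((|M| + 1) * (ε / A * ((|C| + 1) * ‖b - b₀‖)))) := by
          gcongr; linarith
      _ = A * (ε / A) * ‖b - b₀‖ := by rw [hA]; ring
      _ = ε * ‖b - b₀‖ := by field_simp

end nem

/-- bounded, continuous evaluations of the path and of the 1-jet on a Banach space -/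
structure Ev (α β : ℝ) (B : Type*) [NormedAddCommGroup B] [NormedSpace ℂ B] where
  x : ℝ → B →L[ℂ] ℂ
  k : ℝ → B →L[ℂ] ℂ
  v : ℝ × ℝ → B →L[ℂ] ℂ
  p : ℝ × ℝ → B →L[ℂ] ℂ
  q : ℝ × ℝ → B →L[ℂ] ℂ
  C : ℝ
  bx : ∀ s ∈ Icc α β, ‖x s‖ ≤ C
  bk : ∀ s ∈ Icc α β, ‖k s‖ ≤ C
  bv : ∀ w ∈ Rc α β, ‖v w‖ ≤ C
  bp : ∀ w ∈ Rc α β, ‖p w‖ ≤ C
  bq : ∀ w ∈ Rc α β, ‖q w‖ ≤ C
  cx : ∀ b, ContinuousOn (fun s => x s b) (Icc α β)
  ck : ∀ b, ContinuousOn (fun s => k s b) (Icc α β)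
  cv : ∀ b, ContinuousOn (fun w => v w b) (Rc α β)
  cp : ∀ b, ContinuousOn (fun w => p w b) (Rc α β)
  cq : ∀ b, ContinuousOn (fun w => q w b) (Rc α β)

namespace Ev

variable {B : Type*} [NormedAddCommGroup B] [NormedSpace ℂ B] (e : Ev α β B)

def X (b : B) : ℝ → ℂ := fun s => e.x s b
def K (b : B) : ℝ → ℂ := fun s => e.k s b
def V (b : B) : ℝ × ℝ → ℂ := fun w => e.v w b
def P (b : B) : ℝ × ℝ → ℂ := fun w => e.p w b
def Q (b : B) : ℝ × ℝ → ℂ := fun w => e.q w b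

/-- the action of `b` -/
def A (χ : ℝ → ℂ) (b : B) : ℂ := act α β χ (e.X b) (e.K b) (e.V b) (e.P b) (e.Q b)

/-- the boundary form of `b` at `s` on the variation `d` -/
def fl (s : ℝ) (b d : B) : ℂ := flux s (e.X b) (e.X d) (e.V b) (e.P b) (e.Q b) (e.V d)

/-- the cut-off form of `b` on the variation `d` -/
def st (χ' : ℝ → ℂ) (b d : B) : ℂ := strip α β χ' (e.X b) (e.X d) (e.V b) (e.P b) (e.Q b) (e.V d)

theorem A_diffAt (h : α ≤ β) {χ : ℝ → ℂ} (hχ : ContinuousOn χ (Icc α β)) {b₀ : B}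
    (ho : OkOn α β (e.V b₀) (e.P b₀) (e.Q b₀)) : DifferentiableAt ℂ (e.A χ) b₀ := by
  refine II_diffAt h (fun w => (e.x w.1).prod ((e.k w.1).prod ((e.v w).prod ((e.p w).prod (e.q w)))))
    (C := e.C) (fun w hw => ?_) (fun b => ?_) (c1 hχ) isOpen_PU PL_cd (fun w hw => ho w hw)
  · simp only [ContinuousLinearMap.opNorm_prod, Prod.norm_def, max_le_iff]
    exact ⟨e.bx _ hw.1, e.bk _ hw.1, e.bv w hw, e.bp w hw, e.bq w hw⟩
  · exact (c1 (e.cx b)).prodMk ((c1 (e.ck b)).prodMk ((e.cv b).prodMk ((e.cp b).prodMk (e.cq b))))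

/-- **first variation along a differentiable family of solutions** -/
theorem fam {P : Type*} [NormedAddCommGroup P] [NormedSpace ℂ P] (h : α ≤ β) {χ χ' : ℝ → ℂ}
    (C : Cut α β χ χ') {U : P → B} {z₀ : P} (hU : DifferentiableAt ℂ U z₀)
    (J : ∀ᶠ z in 𝓝 z₀, J1 α β (e.X (U z)) (e.K (U z)) (e.V (U z)) (e.P (U z)) (e.Q (U z)))
    {r m t : ℝ × ℝ → ℂ}
    (J₀ : J2 α β (e.X (U z₀)) (e.K (U z₀)) (e.V (U z₀)) (e.P (U z₀)) (e.Q (U z₀)) r m t)
    (ho : OkOn α β (e.V (U z₀)) (e.P (U z₀)) (e.Q (U z₀))) (d : P) :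
    fderiv ℂ (fun z => e.A χ (U z)) z₀ d =
      bulk α β χ (e.X (U z₀)) (e.K (U z₀)) (e.X (fderiv ℂ U z₀ d)) (e.V (U z₀)) (e.P (U z₀))
        (e.Q (U z₀)) r m t (e.V (fderiv ℂ U z₀ d)) - e.st χ' (U z₀) (fderiv ℂ U z₀ d) +
      (χ β * e.fl β (U z₀) (fderiv ℂ U z₀ d) - χ α * e.fl α (U z₀) (fderiv ℂ U z₀ d)) := by
  have hl : HasDerivAt (fun τ : ℂ => z₀ + τ • d) d 0 := by
    simpa using ((hasDerivAt_id (0 : ℂ)).smul_const d).const_add z₀
  have h0 : z₀ = z₀ + (0 : ℂ) • d := by simp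
  have h1 : HasDerivAt (fun τ : ℂ => U (z₀ + τ • d)) (fderiv ℂ U z₀ d) 0 :=
    hU.hasFDerivAt.comp_hasDerivAt_of_eq (0 : ℂ) hl h0
  have hA : DifferentiableAt ℂ (fun z => e.A χ (U z)) z₀ := (e.A_diffAt h C.c ho).comp z₀ hU
  have h2 : HasDerivAt (fun τ : ℂ => e.A χ (U (z₀ + τ • d)))
      (fderiv ℂ (fun z => e.A χ (U z)) z₀ d) 0 :=
    hA.hasFDerivAt.comp_hasDerivAt_of_eq (0 : ℂ) hl h0
  have hJ : ∀ᶠ τ in 𝓝 (0 : ℂ), J1 α β (e.X (U (z₀ + τ • d))) (e.K (U (z₀ + τ • d)))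
      (e.V (U (z₀ + τ • d))) (e.P (U (z₀ + τ • d))) (e.Q (U (z₀ + τ • d))) := by
    have : Tendsto (fun τ : ℂ => z₀ + τ • d) (𝓝 0) (𝓝 z₀) := by
      have := hl.continuousAt.tendsto
      rwa [← h0] at this
    exact this.eventually J
  have h3 := act_deriv (x := fun τ => e.X (U (z₀ + τ • d))) (k := fun τ => e.K (U (z₀ + τ • d)))
    (v := fun τ => e.V (U (z₀ + τ • d))) (p := fun τ => e.P (U (z₀ + τ • d)))
    (q := fun τ => e.Q (U (z₀ + τ • d))) (r := r) (m := m) (t := t) h C hJ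
    (by simpa only [← h0] using J₀) (by simpa only [← h0] using ho)
    (UD.of_ev e.x e.bx h1) (UD.of_ev e.k e.bk h1) (UD.of_ev e.v e.bv h1) (UD.of_ev e.p e.bp h1)
    (UD.of_ev e.q e.bq h1) (e.cx _) (e.ck _) (e.cv _) (e.cp _) (e.cq _)
  have h4 := h2.unique h3
  simp only [← h0] at h4
  exact h4

/-- the same for solutions of the equation on the support of `χ` -/
theorem fam_sol {P : Type*} [NormedAddCommGroup P] [NormedSpace ℂ P] (h : α ≤ β) {χ χ' : ℝ → ℂ}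
    (C : Cut α β χ χ') {U : P → B} {z₀ : P} (hU : DifferentiableAt ℂ U z₀)
    (J : ∀ᶠ z in 𝓝 z₀, J1 α β (e.X (U z)) (e.K (U z)) (e.V (U z)) (e.P (U z)) (e.Q (U z)))
    {r m t : ℝ × ℝ → ℂ}
    (J₀ : J2 α β (e.X (U z₀)) (e.K (U z₀)) (e.V (U z₀)) (e.P (U z₀)) (e.Q (U z₀)) r m t)
    (ho : OkOn α β (e.V (U z₀)) (e.P (U z₀)) (e.Q (U z₀)))
    (he : ∀ w ∈ Rc α β, χ w.1 = 0 ∨ Eqn (e.X (U z₀) w.1) (e.V (U z₀) w) (e.P (U z₀) w)
      (e.Q (U z₀) w) (r w) (m w) (t w) = 0) (d : P) :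
    fderiv ℂ (fun z => e.A χ (U z)) z₀ d =
      χ β * e.fl β (U z₀) (fderiv ℂ U z₀ d) - χ α * e.fl α (U z₀) (fderiv ℂ U z₀ d) -
        e.st χ' (U z₀) (fderiv ℂ U z₀ d) := by
  rw [e.fam h C hU J J₀ ho d, bulk_zero h he]
  ring

end Ev

end Crest.Agent.N250.Act

end
end

-- ▼ part N250/Act/Inst

/-!
# Row 250, B1 / S7 (helper97): the first variation for the jets of `B1/Defs` (`FVS`, and the version
with a smooth cut-off), and the conservation of the torque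
-/

set_option autoImplicit false
open MeasureTheory Set Filter Topology Complex

noncomputable section

namespace Crest.Agent.N250.Act

open B1

section wi

variable {ω : WiW CI}

theorem syn_der {c : CI} {u u' : Wi ω} (h : ∀ m, Der (Wi.co u m) (c * Wi.co u' m)) (θ : ℝ) :
    Der (Wi.syn u θ) (c * Wi.syn u' θ) := by
  have h1 := (Wi.hasSum_syn u θ).mapL (B1.cst.comp (ContinuousMap.evalCLM ℂ i0))
  have h2 := ((Wi.hasSum_syn u' θ).mul_left c).mapL pr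
  refine (Wi.hasSum_syn u θ).unique ?_
  refine (h1.add h2).congr_fun ?_
  intro m
  have := (h m).smul (Wi.ex m θ)
  rw [Der] at this
  rw [mul_smul_comm]
  exact this

theorem syn_dt {u u' : Wi ω} (h : ∀ m : ℤ, Wi.co u' m = (m * I : ℂ) • Wi.co u m) (θ : ℝ) :
    HasDerivAt (Wi.syn u) (Wi.syn u' θ) θ := by
  refine hasDerivAt_tsum (g := fun m θ => Wi.ex m θ • Wi.co u m)
    (g' := fun m θ => Wi.ex m θ • Wi.co u' m) (y₀ := θ) (Wi.summable_co u') (fun m θ => ?_)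
    (fun m θ => by simp [norm_smul]) (Wi.hasSum_syn u θ).summable θ
  rw [h m, smul_smul, mul_comm]
  exact (((ContinuousLinearMap.toSpanSingleton ℂ (Wi.co u m)).restrictScalars
    ℝ).hasFDerivAt.comp_hasDerivAt θ (Wi.hasDerivAt_ex m θ))

/-- point values on `ℝ × ℝ` -/
def pv (u : Wi ω) (z : ℝ × ℝ) : ℂ := ex (Wi.syn u z.2) z.1

theorem pv_cont (u : Wi ω) : Continuous (pv u) :=
  continuous_eval.comp (((Wi.continuous_syn u).comp continuous_snd).prodMk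
    ((continuous_projIcc (h := zero_le_one)).comp continuous_fst))

theorem pv_ds {c : CI} {u u' : Wi ω} (h : ∀ m, Der (Wi.co u m) (c * Wi.co u' m)) :
    Ds 0 1 (pv u) fun z => ex c z.1 * pv u' z := fun _ hs θ _ => (syn_der h θ).at hs

theorem pv_dt {u u' : Wi ω} (h : ∀ m : ℤ, Wi.co u' m = (m * I : ℂ) • Wi.co u m) (s θ : ℝ) :
    HasDerivAt (fun θ => pv u (s, θ)) (pv u' (s, θ)) θ :=
  ((ContinuousMap.evalCLM ℝ (projIcc 0 1 zero_le_one s) : CI →L[ℝ] ℂ).hasFDerivAt.comp_hasDerivAt θ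
    (syn_dt h θ) :)

theorem pv_per (u : Wi ω) : Per 0 1 (pv u) := fun s _ => by
  have := Wi.syn_periodic u 0
  rw [zero_add] at this
  simp only [pv, this]

/-- evaluation of `CI` -/
def exL (s : ℝ) : CI →L[ℂ] ℂ := ContinuousMap.evalCLM ℂ (projIcc 0 1 zero_le_one s)



variable (ω) in
/-- evaluation of `Wi` -/
def pvL (z : ℝ × ℝ) : Wi ω →L[ℂ] ℂ := (exL z.1).comp (Wi.ev ω z.2).toContinuousLinearMap


theorem pv_le (u : Wi ω) (z : ℝ × ℝ) : ‖pv u z‖ ≤ ‖u‖ := (ex_le _ _).trans (Wi.norm_syn_le u _)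

end wi

theorem cub_hd (s : ℝ) : HasDerivAt (fun s => cub s ^ 3) (6 * cub s ^ 2) s := by
  rcases lt_trichotomy (2 * s - 1) 0 with h | h | h
  · have : (fun s => cub s ^ 3) =ᶠ[𝓝 s] fun _ => 0 := by
      filter_upwards [Iio_mem_nhds (show s < 1 / 2 by linarith)] with u hu
      rw [cub, max_eq_right (by linarith [mem_Iio.1 hu])]; norm_num
    rw [cub, max_eq_right h.le]
    simpa using (hasDerivAt_const s (0 : ℝ)).congr_of_eventuallyEq this
  · have h0 : cub s = 0 := by rw [cub, h, max_self]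
    rw [h0, hasDerivAt_iff_isLittleO, Asymptotics.isLittleO_iff]
    intro ε hε
    filter_upwards [Metric.ball_mem_nhds s (lt_min one_pos (div_pos hε (by norm_num : (0:ℝ) < 8)))]
      with u hu
    rw [Metric.mem_ball, Real.dist_eq, lt_min_iff] at hu
    have h1 : |cub u| ≤ 2 * |u - s| := by
      rw [abs_of_nonneg (le_max_right _ _)]
      exact max_le (by linarith [le_abs_self (u - s)]) (by positivity)
    have h2 : |cub u| ^ 3 ≤ (2 * |u - s|) ^ 3 := pow_le_pow_left₀ (abs_nonneg _) h1 3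
    have h3 := abs_nonneg (u - s)
    have h4 : |u - s| * |u - s| ≤ ε / 8 := by nlinarith [hu.1, hu.2]
    simp only [h0, Real.norm_eq_abs]
    norm_num
    nlinarith
  · have : (fun s => cub s ^ 3) =ᶠ[𝓝 s] fun u => (2 * u - 1) ^ 3 := by
      filter_upwards [Ioi_mem_nhds (show 1 / 2 < s by linarith)] with u hu
      rw [cub, max_eq_left (by linarith [mem_Ioi.1 hu])]
    rw [cub, max_eq_left h.le]
    refine HasDerivAt.congr_of_eventuallyEq ?_ this
    exact ((((hasDerivAt_id s).const_mul 2).sub_const 1).fun_pow 3).congr_deriv (by simp; ring)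

theorem gam_der (R : ℝ) (X : ℂ) : Der (gam R X) (dgam R X) := by
  refine der_of_fun (g := fun s : ℝ => R + 2 * (s : ℂ) + (X - R - 2) * ((cub s ^ 3 : ℝ) : ℂ))
    (fun s => by simp [gam]) (fun s _ => ?_)
  have h1 := (hasDerivAt_id (s : ℝ)).ofReal_comp
  have h2 := (cub_hd s).ofReal_comp
  refine HasDerivAt.congr_deriv (((h1.const_mul 2).const_add (R : ℂ)).fun_add
    (h2.const_mul (X - R - 2))) ?_
  simp [dgam]; ring

/-- `(2 s - 1)₊³` -/
def cb3 : CI := ⟨fun s => ((cub s : ℝ) : ℂ) ^ 3, by have := continuous_cub; fun_prop⟩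
/-- its derivative -/
def cb2 : CI := ⟨fun s => 6 * ((cub s : ℝ) : ℂ) ^ 2, by have := continuous_cub; fun_prop⟩

theorem gam_eq (R : ℝ) (X : ℂ) : gam R X = gam R 0 + X • cb3 := by
  ext s; simp [gam, cb3]; ring

theorem dgam_eq (R : ℝ) (X : ℂ) : dgam R X = dgam R 0 + X • cb2 := by
  ext s; simp [dgam, cb2]; ring

theorem gam_i1 (R : ℝ) (X : ℂ) : gam R X i1 = X := by norm_num [gam, i1, cub]
theorem cb3_i1 : cb3 i1 = 1 := by norm_num [cb3, i1, cub]

theorem cb3_strip {s : ℝ} (hs : s ≤ 1 / 2) : ex cb3 s = 0 := by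
  have h : ((projIcc (0 : ℝ) 1 zero_le_one s : Icc (0 : ℝ) 1) : ℝ) ≤ 1 / 2 := by
    rw [coe_projIcc]; exact max_le (by norm_num) ((min_le_right _ _).trans hs)
  simp only [ex, cb3, ContinuousMap.coe_mk, cub]
  rw [max_eq_right (by linarith)]; simp

variable {ℓ : Ell}

/-- the six point functions of `vj` on `ℝ × ℝ` -/
def vf (R : ℝ) (X a : ℂ) (J : Jt ℓ) (i : Fin 6) (z : ℝ × ℝ) : ℂ :=
  vj R X a J (projIcc 0 1 zero_le_one z.1) z.2 i

theorem vf0 (R : ℝ) (X a : ℂ) (J : Jt ℓ) :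
    vf R X a J 0 = fun z => et a (ex (gam R X) z.1) + pv (J 0) z := rfl
theorem vf1 (R : ℝ) (X a : ℂ) (J : Jt ℓ) :
    vf R X a J 1 = fun z => a * ex (gam R X) z.1 + pv (J 1) z := rfl
theorem vf2 (R : ℝ) (X a : ℂ) (J : Jt ℓ) : vf R X a J 2 = fun z => a + pv (J 2) z := rfl

theorem vf_cont (R : ℝ) (X a : ℂ) (J : Jt ℓ) (i : Fin 6) : Continuous (vf R X a J i) := by
  have h := (ex_cont (gam R X)).comp (continuous_fst : Continuous fun z : ℝ × ℝ => z.1)
  have hp := fun j => pv_cont (J j)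
  fin_cases i
  · refine Continuous.add (f := fun z : ℝ × ℝ => et a (ex (gam R X) z.1)) ?_ (hp 0)
    unfold et
    exact continuous_const.add ((continuous_const.mul ((h.pow 2).sub continuous_const)).div_const 2)
  · exact (continuous_const.mul h).add (hp 1)
  · exact continuous_const.add (hp 2)
  · exact hp 3
  · exact hp 4
  · exact hp 5

/-- a jet of `B1` is a second order jet along `γ_X` -/
theorem j2_of {R : ℝ} {X : ℂ} (a : ℂ) {J : Jt ℓ} (h : IsJet (dgam R X) J) :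
    J2 0 1 (ex (gam R X)) (ex (dgam R X)) (vf R X a J 0) (vf R X a J 1) (vf R X a J 3)
      (vf R X a J 2) (vf R X a J 4) (vf R X a J 5) := by
  have hg := fun s (hs : s ∈ Ioo (0 : ℝ) 1) => (gam_der R X).at hs
  have d3 : ∀ m, Der (Wi.co (J 3) m) (dgam R X * Wi.co (J 4) m) := fun m => by
    rw [h.t0, h.t1, mul_smul_comm]; exact (h.d0 m).smul _
  have t3 : ∀ m : ℤ, Wi.co (J 5) m = (m * I : ℂ) • Wi.co (J 3) m := fun m => by
    rw [h.t2, h.t0, smul_smul]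
    congr 1
    linear_combination (-(m : ℂ) ^ 2) * I_sq
  refine ⟨⟨(ex_cont _).continuousOn, (ex_cont _).continuousOn, hg, (vf_cont ..).continuousOn,
    (vf_cont ..).continuousOn, (vf_cont ..).continuousOn, fun s hs θ hθ => ?_, fun s _ θ _ => ?_,
    fun s hs => ?_, fun s hs => ?_, pv_per _⟩, (vf_cont ..).continuousOn, (vf_cont ..).continuousOn,
    (vf_cont ..).continuousOn, fun s hs θ hθ => ?_, pv_ds d3, fun s _ θ _ => ?_,
    fun s _ θ _ => pv_dt t3 s θ⟩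
  · have h1 := (((((hg s hs).fun_pow 2).sub_const 2).const_mul a).div_const 2).const_add 1
    refine HasDerivAt.congr_deriv (h1.fun_add (pv_ds h.d0 s hs θ hθ)) ?_
    simp only [vf1]; push_cast; ring
  · exact (pv_dt h.t0 s θ).const_add (et a (ex (gam R X) s))
  · simp only [vf0, pv_per (J 0) s hs]
  · simp only [vf1, pv_per (J 1) s hs]
  · refine HasDerivAt.congr_deriv (((hg s hs).const_mul a).fun_add (pv_ds h.d1 s hs θ hθ)) ?_
    simp only [vf2]; ring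
  · exact (pv_dt h.t1 s θ).const_add (a * ex (gam R X) s)

theorem okOn_of {R : ℝ} {X a : ℂ} {J : Jt ℓ} (h : RegJ R X a J) :
    OkOn 0 1 (vf R X a J 0) (vf R X a J 1) (vf R X a J 3) := fun _ _ => h _ _

theorem eqn_of {R : ℝ} {z : Par ℓ} {J : Jt ℓ} (h : Sol R z J) (w : ℝ × ℝ) :
    Eqn (ex (gam R z.1) w.1) (vf R z.1 z.2.1 J 0 w) (vf R z.1 z.2.1 J 1 w) (vf R z.1 z.2.1 J 3 w)
      (vf R z.1 z.2.1 J 2 w) (vf R z.1 z.2.1 J 4 w) (vf R z.1 z.2.1 J 5 w) = 0 := h.eq _ _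

theorem Lag_eq (x v p q : ℂ) : B1.Lag x v p q = Lag x v p q := by
  simp only [B1.Lag, Lag, Wf, Ef, Complex.sqrt, one_div]; rfl

theorem Mom_eq (x v p q : ℂ) : B1.Mom x v p q = Lp x v p q := by
  have : (Po.QQ v p q) ^ (-1 / 2 : ℂ) = (Wf v p q)⁻¹ := by
    rw [Wf, Complex.sqrt, ← cpow_neg]; congr 1; ring
  rw [B1.Mom, this, Lp, Ef]; ring

/-- the action of an end with a cut-off `χ (s)` -/
def actC (χ : ℝ → ℂ) (R : ℝ) (X a : ℂ) (J : Jt ℓ) : ℂ :=
  act 0 1 χ (ex (gam R X)) (ex (dgam R X)) (vf R X a J 0) (vf R X a J 1) (vf R X a J 3)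


/-- the ambient space `(γ, γ', η ∘ γ, a γ, J)` -/
abbrev BB (ℓ : Ell) : Type := (CI × CI) × (CI × CI) × Jt ℓ

/-- components of a jet -/
def prJ (ℓ : Ell) (i : Fin 6) : Jt ℓ →L[ℂ] Wi (om ℓ) :=
  ContinuousLinearMap.proj (R := ℂ) (φ := fun _ : Fin 6 => Wi (om ℓ)) i

open ContinuousLinearMap in
/-- its evaluations -/
def evB (ℓ : Ell) : Ev 0 1 (BB ℓ) where
  x s := (exL s).comp ((fst ℂ _ _).comp (fst ℂ _ _))
  k s := (exL s).comp ((snd ℂ _ _).comp (fst ℂ _ _))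
  v w := (exL w.1).comp ((fst ℂ _ _).comp ((fst ℂ _ _).comp (snd ℂ _ _))) +
    (pvL _ w).comp ((prJ ℓ 0).comp ((snd ℂ _ _).comp (snd ℂ _ _)))
  p w := (exL w.1).comp ((snd ℂ _ _).comp ((fst ℂ _ _).comp (snd ℂ _ _))) +
    (pvL _ w).comp ((prJ ℓ 1).comp ((snd ℂ _ _).comp (snd ℂ _ _)))
  q w := (pvL _ w).comp ((prJ ℓ 3).comp ((snd ℂ _ _).comp (snd ℂ _ _)))
  C := 2
  bx s _ := opNorm_le_bound _ zero_le_two fun b => (ex_le b.1.1 s).trans
    (by linarith [norm_fst_le b.1, norm_fst_le b, norm_nonneg b])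
  bk s _ := opNorm_le_bound _ zero_le_two fun b => (ex_le b.1.2 s).trans
    (by linarith [norm_snd_le b.1, norm_fst_le b, norm_nonneg b])
  bv w _ := opNorm_le_bound _ zero_le_two fun b => (norm_add_le (ex b.2.1.1 w.1) (pv (b.2.2 0) w)).trans
    (by linarith [ex_le b.2.1.1 w.1, pv_le (b.2.2 0) w, norm_fst_le b.2.1, norm_fst_le b.2,
      norm_snd_le b.2, norm_snd_le b, norm_le_pi_norm b.2.2 0])
  bp w _ := opNorm_le_bound _ zero_le_two fun b => (norm_add_le (ex b.2.1.2 w.1) (pv (b.2.2 1) w)).trans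
    (by linarith [ex_le b.2.1.2 w.1, pv_le (b.2.2 1) w, norm_snd_le b.2.1, norm_fst_le b.2,
      norm_snd_le b.2, norm_snd_le b, norm_le_pi_norm b.2.2 1])
  bq w _ := opNorm_le_bound _ zero_le_two fun b => (pv_le (b.2.2 3) w).trans
    (by linarith [norm_snd_le b.2, norm_snd_le b, norm_le_pi_norm b.2.2 3, norm_nonneg b])
  cx b := (ex_cont b.1.1).continuousOn
  ck b := (ex_cont b.1.2).continuousOn
  cv b := (((ex_cont b.2.1.1).comp continuous_fst).add (pv_cont (b.2.2 0))).continuousOn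
  cp b := (((ex_cont b.2.1.2).comp continuous_fst).add (pv_cont (b.2.2 1))).continuousOn
  cq b := (pv_cont (b.2.2 3)).continuousOn

/-- the embedding of `(X, a, J)` -/
def emb (R : ℝ) (y : ℂ × ℂ × Jt ℓ) : BB ℓ :=
  ((gam R y.1, dgam R y.1),
    (1 + (y.2.1 / 2) • (gam R y.1 * gam R y.1 - (2 : ℂ) • 1), y.2.1 • gam R y.1), y.2.2)

/-- its derivative -/
def demb (R : ℝ) (y d : ℂ × ℂ × Jt ℓ) : BB ℓ :=
  ((d.1 • cb3, d.1 • cb2),
    ((d.2.1 / 2) • (gam R y.1 * gam R y.1 - (2 : ℂ) • 1) + (y.2.1 * d.1) • (gam R y.1 * cb3),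
      d.2.1 • gam R y.1 + (y.2.1 * d.1) • cb3), d.2.2)

theorem emb_hd (R : ℝ) {y : ℂ → ℂ × ℂ × Jt ℓ} {d : ℂ × ℂ × Jt ℓ} {t : ℂ} (h : HasDerivAt y d t) :
    HasDerivAt (fun u => emb R (y u)) (demb R (y t) d) t := by
  have hX : HasDerivAt (fun u => (y u).1) d.1 t := h.fst
  have ha : HasDerivAt (fun u => (y u).2.1) d.2.1 t := h.snd.fst
  have hJ : HasDerivAt (fun u => (y u).2.2) d.2.2 t := h.snd.snd
  have hg : HasDerivAt (fun u => gam R (y u).1) (d.1 • cb3) t := by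
    simp only [gam_eq R (y _).1]
    exact (hX.smul_const cb3).const_add _
  have hk : HasDerivAt (fun u => dgam R (y u).1) (d.1 • cb2) t := by
    simp only [dgam_eq R (y _).1]
    exact (hX.smul_const cb2).const_add _
  refine (hg.prodMk hk).prodMk ((HasDerivAt.prodMk ?_ ?_).prodMk hJ)
  · refine HasDerivAt.congr_deriv ((((ha.div_const 2).fun_smul
      ((hg.fun_mul hg).sub_const ((2 : ℂ) • 1)))).const_add 1) ?_
    ext s; simp; ring
  · refine HasDerivAt.congr_deriv (ha.fun_smul hg) ?_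
    ext s; simp; ring

theorem emb_diff (R : ℝ) : Differentiable ℂ (emb (ℓ := ℓ) R) := by
  have hg : Differentiable ℂ fun y : ℂ × ℂ × Jt ℓ => gam R y.1 := by
    simp only [fun y : ℂ × ℂ × Jt ℓ => gam_eq R y.1]; fun_prop
  have hk : Differentiable ℂ fun y : ℂ × ℂ × Jt ℓ => dgam R y.1 := by
    simp only [fun y : ℂ × ℂ × Jt ℓ => dgam_eq R y.1]; fun_prop
  unfold emb
  fun_prop

theorem emb_V (R : ℝ) (y : ℂ × ℂ × Jt ℓ) : (evB ℓ).V (emb R y) = vf R y.1 y.2.1 y.2.2 0 := by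
  funext w
  change ex (1 + (y.2.1 / 2) • (gam R y.1 * gam R y.1 - (2 : ℂ) • 1)) w.1 + pv (y.2.2 0) w = _
  simp only [vf0, et, ex, ContinuousMap.add_apply, ContinuousMap.smul_apply,
    ContinuousMap.sub_apply, ContinuousMap.mul_apply, ContinuousMap.one_apply, smul_eq_mul]
  ring

theorem emb_A (χ : ℝ → ℂ) (R : ℝ) (y : ℂ × ℂ × Jt ℓ) :
    (evB ℓ).A χ (emb R y) = actC χ R y.1 y.2.1 y.2.2 := by
  rw [Ev.A, emb_V]; rfl

/-- **the action is holomorphic in `(X, a, J)`** at regular jets -/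
theorem actC_diffAt {χ : ℝ → ℂ} (hχ : ContinuousOn χ (Icc 0 1)) (R : ℝ) {y : ℂ × ℂ × Jt ℓ}
    (h : RegJ R y.1 y.2.1 y.2.2) : DifferentiableAt ℂ (fun y : ℂ × ℂ × Jt ℓ =>
      actC χ R y.1 y.2.1 y.2.2) y := by
  simp only [← emb_A]
  refine ((evB ℓ).A_diffAt zero_le_one hχ ?_).comp y (emb_diff R y)
  rw [emb_V]
  exact okOn_of h

/-- the total variation of `v (s, θ)` at fixed `(s, θ)` -/
def dv (R : ℝ) (X a X' a' : ℂ) (J' : Jt ℓ) (w : ℝ × ℝ) : ℂ :=
  a' * (ex (gam R X) w.1 ^ 2 - 2) / 2 + a * ex (gam R X) w.1 * (X' * ex cb3 w.1) + pv (J' 0) w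

/-- **first variation with a cut-off** -/
theorem actC_deriv {χ χ' : ℝ → ℂ} (C : Cut 0 1 χ χ') (R : ℝ) {z : ℂ → Par ℓ} {J : ℂ → Jt ℓ}
    {z' : Par ℓ} {J' : Jt ℓ} {t : ℂ} (hz : HasDerivAt z z' t) (hJ : HasDerivAt J J' t)
    (hj : ∀ᶠ u in 𝓝 t, IsJet (dgam R (z u).1) (J u)) (hs : Sol R (z t) (J t))
    (hr : RegJ R (z t).1 (z t).2.1 (J t)) :
    HasDerivAt (fun u => actC χ R (z u).1 (z u).2.1 (J u))
      (χ 1 * flux 1 (ex (gam R (z t).1)) (fun s => z'.1 * ex cb3 s) (vf R (z t).1 (z t).2.1 (J t) 0)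
          (vf R (z t).1 (z t).2.1 (J t) 1) (vf R (z t).1 (z t).2.1 (J t) 3)
          (dv R (z t).1 (z t).2.1 z'.1 z'.2.1 J') -
        χ 0 * flux 0 (ex (gam R (z t).1)) (fun s => z'.1 * ex cb3 s) (vf R (z t).1 (z t).2.1 (J t) 0)
          (vf R (z t).1 (z t).2.1 (J t) 1) (vf R (z t).1 (z t).2.1 (J t) 3)
          (dv R (z t).1 (z t).2.1 z'.1 z'.2.1 J') -
        strip 0 1 χ' (ex (gam R (z t).1)) (fun s => z'.1 * ex cb3 s) (vf R (z t).1 (z t).2.1 (J t) 0)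
          (vf R (z t).1 (z t).2.1 (J t) 1) (vf R (z t).1 (z t).2.1 (J t) 3)
          (dv R (z t).1 (z t).2.1 z'.1 z'.2.1 J')) t := by
  have hy : HasDerivAt (fun u => ((z u).1, (z u).2.1, J u)) (z'.1, z'.2.1, J') t :=
    hz.fst.prodMk (hz.snd.fst.prodMk hJ)
  have hU := emb_hd R hy
  have hA := (actC_diffAt C.c R (y := ((z t).1, (z t).2.1, J t)) hr).hasFDerivAt.comp_hasDerivAt t hy
  have hA' : DifferentiableAt ℂ (fun u => actC χ R (z u).1 (z u).2.1 (J u)) t := hA.differentiableAt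
  have key := (evB ℓ).fam_sol zero_le_one C hU.differentiableAt
    (hj.mono fun u h => by rw [emb_V]; exact (j2_of (z u).2.1 h).toJ1)
    (by rw [emb_V]; exact j2_of (z t).2.1 hs.jet) (by rw [emb_V]; exact okOn_of hr)
    (fun w _ => Or.inr (by rw [emb_V]; exact eqn_of hs w)) 1
  simp only [emb_A, fderiv_apply_one_eq_deriv, hU.deriv] at key
  refine hA'.hasDerivAt.congr_deriv (key.trans ?_)
  have e : (evB ℓ).V (demb R ((z t).1, (z t).2.1, J t) (z'.1, z'.2.1, J')) =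
      dv R (z t).1 (z t).2.1 z'.1 z'.2.1 J' := by
    funext w
    change ex ((z'.2.1 / 2) • (gam R (z t).1 * gam R (z t).1 - (2 : ℂ) • 1) +
      ((z t).2.1 * z'.1) • (gam R (z t).1 * cb3)) w.1 + pv (J' 0) w = _
    simp only [dv, ex, ContinuousMap.add_apply, ContinuousMap.smul_apply,
      ContinuousMap.sub_apply, ContinuousMap.mul_apply, ContinuousMap.one_apply, smul_eq_mul]
    ring
  rw [Ev.fl, Ev.fl, Ev.st, e, emb_V]
  rfl

theorem flux_one (R : ℝ) (X a X' a' : ℂ) (J J' : Jt ℓ) :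
    flux 1 (ex (gam R X)) (fun s => X' * ex cb3 s) (vf R X a J 0) (vf R X a J 1) (vf R X a J 3)
      (dv R X a X' a' J') = ∫ θ in (0 : ℝ)..(2 * Real.pi),
        ((B1.Lag X (vj R X a J i1 θ 0) (vj R X a J i1 θ 1) (vj R X a J i1 θ 3) -
          vj R X a J i1 θ 1 * Mom X (vj R X a J i1 θ 0) (vj R X a J i1 θ 1) (vj R X a J i1 θ 3)) * X' +
          Mom X (vj R X a J i1 θ 0) (vj R X a J i1 θ 1) (vj R X a J i1 θ 3) *
            (a' * (X ^ 2 - 2) / 2 + a * X * X' + val (J' 0) i1 θ)) := by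
  have e : projIcc (0 : ℝ) 1 zero_le_one 1 = i1 := projIcc_right _
  simp only [flux, OI, dv, vf, pv, ex, e, gam_i1, cb3_i1, Lag_eq, Mom_eq, val]
  congr 1; funext θ; ring



/-- the torque of a solution through the circle `s` equals the torque through the far circle -/
theorem torque_sol {R : ℝ} {z : Par ℓ} {J : Jt ℓ} (hs : Sol R z J) (hr : RegJ R z.1 z.2.1 J)
    (h2 : ∀ s θ, 2 * vj R z.1 z.2.1 J s θ 0 ∈ slitPlane) {c σ : ℝ → ℂ} (A : Ang c σ) {s : ℝ}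
    (h : s ∈ Icc (0 : ℝ) 1) :
    torque s (ex (gam R z.1)) (vf R z.1 z.2.1 J 0) (vf R z.1 z.2.1 J 1) (vf R z.1 z.2.1 J 3) c σ =
    torque 1 (ex (gam R z.1)) (vf R z.1 z.2.1 J 0) (vf R z.1 z.2.1 J 1) (vf R z.1 z.2.1 J 3) c σ :=
  torque_const (j2_of z.2.1 hs.jet) (okOn_of hr) (fun _ _ => h2 _ _) A h (fun w _ => eqn_of hs w)

end Crest.Agent.N250.Act

end
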